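import Vale.Agent.P354CB.Defs

/-!
Local isometries: change of charts, composition, curves, time reversal.
-/

open scoped ContDiff
open Set Filter Topology

namespace Vale.Agent.P354CB59

open Vale.Agent.P354n
open Vale.Agent.P354CB
open Vale.Agent.P354XJ

variable {M N P : Spc} {ψ ψ' : M.pt → N.pt} {φ : N.pt → P.pt} {x : M.pt}

theorem inv_tend {e : M.Chart} (h : On e x) : Tendsto (inv e) (𝓝 (co e x)) (𝓝 x) := by
  have := (inv_cont (co_mem h)).tendsto
  rwa [inv_co h] at this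

theorem lm_congr (h : LM ψ x) (k : ψ' =ᶠ[𝓝 x] ψ) : LM ψ' x :=
  ⟨h.1.congr k.symm, fun e e' h1 h2 => (h.2 e e' h1 (k.eq_of_nhds ▸ h2)).congr
    (((inv_tend h1).eventually k).mono fun _ hy => congrArg (co e') hy)⟩

theorem lm_of_isom {κ : M.pt → N.pt} (h : IsIsom κ) (c : Continuous κ) (x : M.pt) : LM κ x :=
  ⟨c.continuousAt, fun e e' h1 h2 => isIsom_iff.1 h e e' _ (co_mem h1) (by rwa [inv_co h1])⟩

theorem lm_isom {κ : M.pt → N.pt} (h : ∀ x, LM κ x) : IsIsom κ :=
  isIsom_iff.2 fun e e' y hy h' => by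
    have := (h (inv e y)).2 e e' (inv_mem hy) h'
    rwa [co_inv hy] at this

/-- Composition in three given charts. -/
theorem iso_comp (hM : St M) (hN : St N) (hP : St P) {e : M.Chart} {e' : N.Chart} {e'' : P.Chart}
    (c : ContinuousAt ψ x) (h0 : On e x) (h1 : On e' (ψ x)) (h2 : On e'' (φ (ψ x)))
    (i1 : Iso e e' (fun y => co e' (ψ (inv e y))) (co e x))
    (i2 : Iso e' e'' (fun y => co e'' (φ (inv e' y))) (co e' (ψ x))) :
    Iso e e'' (fun y => co e'' (φ (ψ (inv e y)))) (co e x) := by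
  refine (i1.comp hM.sp hN.sp hP.sp (G := fun y => co e'' (φ (inv e' y))) (by
    simpa only [inv_co h0] using i2) (co_mem h0) (by simpa only [inv_co h0] using co_mem h1)
    (by simpa only [inv_co h0, inv_co h1] using co_mem h2)).congr ?_
  filter_upwards [(inv_tend h0).eventually (c.eventually (on_nhds h1))] with y hy
  simp only [Function.comp, inv_co hy]

theorem lm_id (hM : St M) (x : M.pt) : LM (id : M.pt → M.pt) x :=
  lm_of_isom hM.sp.tensor continuous_id x

theorem lm_chart (hM : St M) (hN : St N) {e : M.Chart} {e' : N.Chart} (c : ContinuousAt ψ x)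
    (h0 : On e x) (h1 : On e' (ψ x)) (i : Iso e e' (fun y => co e' (ψ (inv e y))) (co e x)) :
    LM ψ x :=
  ⟨c, fun a a' k0 k1 => iso_comp (φ := id) hM hN hN c k0 h1 k1
    (iso_comp (ψ := id) (φ := ψ) hM hM hN continuousAt_id k0 h0 h1 ((lm_id hM x).2 a e k0 h0) i)
    ((lm_id hN (ψ x)).2 e' a' h1 k1)⟩

theorem lm_comp (hM : St M) (hN : St N) (hP : St P) (h : LM ψ x) (k : LM φ (ψ x)) :
    LM (φ ∘ ψ) x :=
  ⟨k.1.comp h.1, fun e e'' h0 h2 => (N.cover (ψ x)).elim fun e' h1 =>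
    iso_comp hM hN hP h.1 h0 h1 h2 (h.2 e e' h0 h1) (k.2 e' e'' h1 h2)⟩

theorem lm_curve (hM : St M) (hN : St N) {I : Set ℝ} {c : ℝ → M.pt} (hI : UniqueDiffOn ℝ I)
    (hc : Cv M I c) (h : ∀ t ∈ I, LM ψ (c t)) : Cv N I fun t => ψ (c t) := by
  refine ⟨fun t ht => (h t ht).1.comp_continuousWithinAt (hc.1 t ht), fun t ht e' h1 => ?_⟩
  obtain ⟨e, h0⟩ := M.cover (c t)
  replace h0 : On e (c t) := h0
  obtain ⟨a1, a2, a3⟩ := (h t ht).2 e e' h0 h1
  obtain ⟨b1, b2⟩ := hc.2 t ht e h0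
  obtain ⟨b2, b3⟩ := b2 _ _ rfl rfl
  have ev : (fun s => co e' (ψ (c s))) =ᶠ[𝓝[I] t]
      (fun y => co e' (ψ (inv e y))) ∘ fun s => co e (c s) := by
    filter_upwards [(hc.1 t ht).eventually (on_nhds h0)] with s hs
    simp only [Function.comp, inv_co hs]
  have e0 : co e' (ψ (c t)) = ((fun y => co e' (ψ (inv e y))) ∘ fun s => co e (c s)) t := by
    simp only [Function.comp, inv_co h0]
  have da := a1.differentiableAt (by simp)
  refine ⟨((a1.of_le (by exact_mod_cast le_top)).comp_contDiffWithinAt t b1).congr_of_eventuallyEq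
    ev e0, fun y w hy hw => ?_⟩
  have dw : w = lineDeriv ℝ (fun y => co e' (ψ (inv e y))) (co e (c t))
      (derivWithin (fun s => co e (c s)) I t) := by
    rw [hw, ev.derivWithin_eq e0, da.lineDeriv_eq_fderiv]
    exact (da.hasFDerivAt.comp_hasDerivWithinAt t
      (b1.differentiableWithinAt (by simp)).hasDerivWithinAt).derivWithin (hI t ht)
  simp only [inv_co h0] at a2 a3
  rw [hy, dw]
  refine ⟨(a2 _ _).symm.trans_lt b2, ?_⟩
  refine hN.sp.up.same_cone e' (co_mem h1)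
    (t := lineDeriv ℝ (fun y => co e' (ψ (inv e y))) (co e (c t)) (M.X e (co e (c t)))) ?_ ?_ ?_
    (hN.sp.timelike e' _ (co_mem h1)).le ?_
  · exact (a2 _ _).symm.trans_lt (hM.sp.timelike e _ (co_mem h0))
  · exact (a2 _ _).symm.trans_lt (by simpa using b2)
  · exact (a2 _ _).symm.trans_lt b3
  · exact (hN.sp.up.symm e' (co_mem h1) _ _).trans_lt a3

theorem g_neg (hN : St N) {e : N.Chart} {y : R4} (hy : y ∈ tgt e) (a b : R4) :
    N.g e y (-a) (-b) = N.g e y a b := by
  obtain ⟨L, l, -, k⟩ := hN.sp.signature e y hy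
  rw [k, k, l.map_neg, l.map_neg]
  simp [mink, cu, cv, c1, c2]

theorem iso_rev (hN : St N) {e : M.Chart} {e' : N.Chart} {F : R4 → R4} {y : R4}
    (m : F y ∈ tgt e') : Iso (M := rev M) (N := rev N) e e' F y ↔ Iso e e' F y := by
  refine and_congr_right fun _ => and_congr_right fun _ => ?_
  show N.g e' (F y) (lineDeriv ℝ F y (-M.X e y)) (-N.X e' (F y)) < 0 ↔ _
  rw [lineDeriv_neg, g_neg hN m]

theorem lm_rev (hN : St N) : LM (M := rev M) (N := rev N) ψ x ↔ LM ψ x :=
  and_congr_right fun _ => forall₄_congr fun (e : M.Chart) (e' : N.Chart) (h0 : On e x)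
    (h1 : On e' (ψ x)) => iso_rev hN (F := fun y => co e' (ψ (inv e y))) (y := co e x) (by
      simpa only [inv_co h0] using co_mem h1)

theorem lk1 : LK1 where
  congr := lm_congr
  chart hM hN := lm_chart hM hN
  comp hM hN hP := lm_comp hM hN hP
  of_isom := lm_of_isom
  isom := lm_isom
  curve hM hN := lm_curve hM hN
  rev hN := lm_rev hN

end Vale.Agent.P354CB59
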