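import Vale.Agent.P354CB.Ez
import Vale.Agent.P354CB59.Lk1

/-!
Countably many developments cover every development.
-/

open scoped ContDiff
open Set Filter Topology Metric

namespace Vale.Agent.P354CB59

open Vale.Agent.P354n
open Vale.Agent.P354CB
open Vale.Agent.P354XJ
open Vale.Agent.P354I (X Dat)
open Vale.Agent.P354J (PDy)

theorem ok_near (K : LK3) {N : Spc} (h : St N) {e : N.Chart} {p : R4} (hp : p ∈ tgt e) :
    ∃ k : ℕ, 1 ≤ k ∧ ∀ᶠ z in 𝓝 p, Ok N e z k := by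
  obtain ⟨Γ, c, i⟩ := K.gam (h.lor e)
  have n := (isOpen_tgt e).mem_nhds hp
  have b : ∀ᶠ y in 𝓝 p, ‖Γ y‖ < ‖Γ p‖ + 1 :=
    (ContinuousAt.norm (f := Γ) (c.continuousOn.continuousAt n)).eventually
      (gt_mem_nhds (lt_add_one ‖Γ p‖))
  obtain ⟨r, r0, hr⟩ := Metric.eventually_nhds_iff_ball.1 (b.and n)
  obtain ⟨k, hk⟩ := exists_nat_ge (max (max 1 (‖Γ p‖ + 1)) (4 / r))
  have k1 : (1 : ℝ) ≤ k := (le_max_left _ _).trans ((le_max_left _ _).trans hk)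
  have k2 : ‖Γ p‖ + 1 ≤ k := (le_max_right _ _).trans ((le_max_left _ _).trans hk)
  have k3 : 2 / (k : ℝ) ≤ r / 2 := by
    have := (div_le_iff₀ r0).1 ((le_max_right _ _).trans hk)
    rw [div_le_iff₀ (by linarith)]
    linarith
  refine ⟨k, by exact_mod_cast k1, ?_⟩
  filter_upwards [ball_mem_nhds p (half_pos r0)] with z hz y hy
  obtain ⟨a, m⟩ := hr y (by
    have := dist_triangle y z p
    rw [mem_ball] at hz ⊢
    rw [mem_closedBall] at hy
    linarith)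
  refine ⟨m, fun y a b => Γ y a b, (i y m _).2 fun _ _ => rfl, fun u v => ?_⟩
  exact ((Γ y).le_opNorm₂ u v).trans (by gcongr; linarith)

theorem sat (Z : L0) (T : L3) (hS : STEP) (hR : RUN) : SAT := by
  intro d hd hc
  choose f hf using fun y : ({0}ᶜ : Set X) => hc y.1 y.2
  obtain ⟨E, Ec, EU⟩ := TopologicalSpace.isOpen_iUnion_countable (fun y => (f y).O)
    fun y => (f y).h.op
  have cv : ∀ y ≠ 0, ∃ i ∈ E, y ∈ (f i).O := fun y hy => by
    have : y ∈ ⋃ i, (f i).O := mem_iUnion.2 ⟨⟨y, hy⟩, hf _⟩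
    rw [← EU] at this
    simpa using this
  obtain ⟨g, hg⟩ := Ec.exists_eq_range (by
    obtain ⟨y, hy⟩ := exists_ne (0 : X)
    exact (cv y hy).imp fun _ k => k.1)
  choose σ hσ using hS d hd
  have c0 : ∀ y ≠ 0, ∃ n, y ∈ (f (g n)).O := fun y hy => by
    obtain ⟨_, m, k⟩ := cv y hy
    rw [hg] at m
    obtain ⟨n, rfl⟩ := m
    exact ⟨n, k⟩
  let A : ℕ × List ℕ → LD d := fun i => i.2.foldr (fun m C => σ C m) (f (g i.1))
  refine ⟨A, fun y hy => (c0 y hy).elim fun n k => ⟨(n, []), k⟩, fun B p => ?_⟩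
  have st := B.h.gh.st
  have op : IsOpen {p | ∃ i x, Rel B (A i) p x} := isOpen_iff_mem_nhds.2 fun p ⟨i, _, U, ψ, c, m, _⟩ =>
    mem_of_superset (c.hull.op.mem_nhds m) fun q k => ⟨i, _, U, ψ, c, k, rfl⟩
  have cl : IsClosed {p | ∃ i x, Rel B (A i) p x} := by
    refine isClosed_of_closure_subset fun p hp => ?_
    obtain ⟨e, h0⟩ := B.N.cover p
    replace h0 : On e p := h0
    obtain ⟨k, k1, ok⟩ := ok_near Z.k3 st (co_mem h0)
    obtain ⟨δ, δ0, run⟩ := hR k (by exact_mod_cast k1)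
    obtain ⟨q, ⟨q1, q2, q3⟩, i, x, r⟩ := mem_closure_iff_nhds.1 hp _ ((on_nhds h0).and
      ((co_cont h0).eventually (ok.and (closedBall_mem_nhds _ δ0))))
    obtain ⟨n, fit⟩ := hσ (A i) B e _ k k1 q2 ⟨x, by rwa [inv_co q1]⟩
    obtain ⟨x', r'⟩ := run d hd B _ e _ (co e p - co e q) q2 fit (by
      rwa [← dist_eq_norm, dist_comm])
    rw [add_sub_cancel, inv_co h0] at r'
    exact ⟨(i.1, n :: i.2), x', r'⟩
  obtain ⟨_, ⟨y, hy, rfl⟩, C, -, c1, c2, c3⟩ :=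
    (Z.l2.g3 _ _ (Z.l2.ac d _ _ _ hd B.h)).con univ Hull.univ p trivial
  obtain ⟨n, hn⟩ := c0 y (B.h.nz hy)
  exact c1.subset_isClopen ⟨cl, op⟩ ⟨_, c3, (n, []), _, T.base d hd B _ y hy hn⟩ c2

end Vale.Agent.P354CB59
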