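import Vale.Agent.P354CB.Ez
import Vale.Agent.P354CB59.Lk1

/-!
Countably many developments suffice for one step of a given size.
-/

open scoped ContDiff
open Set Filter Topology Metric

namespace Vale.Agent.P354CB59

open Vale.Agent.P354n
open Vale.Agent.P354CB
open Vale.Agent.P354XJ
open Vale.Agent.P354I (Dat)
open Vale.Agent.P354J (PDy)

variable {d : Dat}

/-- The points and frames of A at which C has a chart of size 1 / k. -/
def Gd (A : LD d) (e0 : A.N.Chart) (k : ℝ) (C : LD d) : Set (R4 × (R4 →L[ℝ] R4)) :=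
  {q | ∃ (V : Set A.N.pt) (φ : A.N.pt → C.N.pt) (e' : C.N.Chart) (m m' : R4 →L[ℝ] R4),
    Com A C V φ ∧ inv e0 q.1 ∈ V ∧ On e' (φ (inv e0 q.1)) ∧ (∀ u, m' (m u) = u ∧ m (m' u) = u) ∧
    (∀ u, ‖u‖ ≤ 1 / k → co e' (φ (inv e0 q.1)) + m u ∈ tgt e' ∧
      Gb (C.N.g e') (co e' (φ (inv e0 q.1)) + m u) m m' k) ∧
    ‖m'.comp ((fderiv ℝ (fun y => co e' (φ (inv e0 y))) q.1).comp q.2)‖ ≤ 2}

theorem chain {M N P : Spc} {ψ : M.pt → N.pt} {φ : N.pt → P.pt} {e : M.Chart} {e0 : N.Chart}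
    {e' : P.Chart} {z : R4} (hz : z ∈ tgt e) (h : LM ψ (inv e z)) (k : LM φ (ψ (inv e z)))
    (h0 : On e0 (ψ (inv e z))) (h1 : On e' (φ (ψ (inv e z)))) :
    fderiv ℝ (fun y => co e' (φ (ψ (inv e y)))) z =
      (fderiv ℝ (fun y => co e' (φ (inv e0 y))) (co e0 (ψ (inv e z)))).comp
        (fderiv ℝ (fun y => co e0 (ψ (inv e y))) z) := by
  have a := (h.2 e e0 (inv_mem hz) h0).1.differentiableAt (by simp)
  rw [co_inv hz] at a
  have b := (k.2 e0 e' h0 h1).1.differentiableAt (by simp)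
  rw [← fderiv_comp z b a]
  refine Filter.EventuallyEq.fderiv_eq ?_
  filter_upwards [(h.1.comp (inv_cont hz)).eventually (on_nhds h0)] with y hy
  simp only [Function.comp] at hy ⊢
  rw [inv_co hy]

theorem self_mem (T : L3) (hd : PDy d) {A B : LD d} {U : Set B.N.pt} {ψ : B.N.pt → A.N.pt}
    (h : Com B A U ψ) {e : B.N.Chart} {e0 : A.N.Chart} {z : R4} {k : ℝ} (hk : 1 ≤ k)
    (ok : Ok B.N e z k) (hz : inv e z ∈ U) (h0 : On e0 (ψ (inv e z))) :
    Gd A e0 k B ∈ 𝓝 (co e0 (ψ (inv e z)), fderiv ℝ (fun y => co e0 (ψ (inv e y))) z) := by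
  obtain ⟨φ, c, l⟩ := T.symm d hd B A U ψ h
  have k0 : 0 < k := by linarith
  have zt : z ∈ tgt e := (ok z (mem_closedBall_self (by positivity))).1
  have m0 : ψ (inv e z) ∈ ψ '' U := ⟨_, hz, rfl⟩
  have lφ := c.lm _ m0
  have o1 : On e (φ (ψ (inv e z))) := by
    rw [l _ hz]
    exact inv_mem zt
  have sm := (lφ.2 e0 e h0 o1).1
  have t0 := inv_tend h0
  have n1 : ∀ᶠ x in 𝓝 (co e0 (ψ (inv e z))), inv e0 x ∈ ψ '' U ∧ On e (φ (inv e0 x)) ∧
      co e (φ (inv e0 x)) ∈ ball z (1 / k) := by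
    refine (t0.eventually (c.hull.op.mem_nhds m0)).and
      ((t0.eventually (lφ.1.eventually (on_nhds o1))).and
        (sm.continuousAt.eventually (isOpen_ball.mem_nhds ?_)))
    simp only [inv_co h0, l _ hz, co_inv zt]
    exact mem_ball_self (by positivity)
  have e1 : (fderiv ℝ (fun y => co e (φ (inv e0 y))) (co e0 (ψ (inv e z)))).comp
      (fderiv ℝ (fun y => co e0 (ψ (inv e y))) z) = .id ℝ R4 := by
    rw [← chain zt (h.lm _ hz) lφ h0 o1, ← fderiv_id (x := z)]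
    refine Filter.EventuallyEq.fderiv_eq ?_
    filter_upwards [(inv_cont zt).eventually (h.hull.op.mem_nhds hz),
      (isOpen_tgt e).mem_nhds zt] with y a b
    rw [l _ a, co_inv b, id]
  have ct : ContinuousAt (fun q : R4 × (R4 →L[ℝ] R4) =>
      ‖(fderiv ℝ (fun y => co e (φ (inv e0 y))) q.1).comp q.2‖)
      (co e0 (ψ (inv e z)), fderiv ℝ (fun y => co e0 (ψ (inv e y))) z) :=
    (((sm.continuousAt_fderiv (by simp)).comp_of_eq continuousAt_fst rfl).clm_comp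
      continuousAt_snd).norm
  have n2 := ct.eventually (gt_mem_nhds (a := 2) (by
    show ‖_‖ < 2
    rw [e1]
    exact ContinuousLinearMap.norm_id_le.trans_lt one_lt_two))
  filter_upwards [continuousAt_fst.eventually n1, n2] with q a b
  refine ⟨_, φ, e, .id ℝ R4, .id ℝ R4, c, a.1, a.2.1, fun _ => ⟨rfl, rfl⟩, fun u hu => ok _ ?_,
    by simpa using b.le⟩
  have := mem_ball_iff_norm.1 a.2.2
  rw [mem_closedBall_iff_norm, ContinuousLinearMap.id_apply, add_sub_right_comm]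
  calc _ ≤ _ := norm_add_le _ _
    _ ≤ 1 / k + 1 / k := add_le_add this.le hu
    _ = 2 / k := by ring

theorem step (T : L3) : STEP := by
  intro d hd A
  have := A.h.gh.sc
  obtain ⟨E, Ec, EU⟩ := TopologicalSpace.isOpen_iUnion_countable
    (fun e : A.N.Chart => (A.N.toE e).source) fun e => (A.N.toE e).open_source
  have key : ∀ i : E × ℕ, ∃ s : Set (Set (R4 × (R4 →L[ℝ] R4))), s.Countable ∧
      s ⊆ {W | ∃ C : LD d, W = interior (Gd A i.1.1 i.2 C)} ∧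
      ⋃₀ s = ⋃₀ {W | ∃ C : LD d, W = interior (Gd A i.1.1 i.2 C)} := fun i =>
    TopologicalSpace.isOpen_sUnion_countable _ (by rintro _ ⟨C, rfl⟩; exact isOpen_interior)
  choose s sc ss sU using key
  have := Ec.to_subtype
  have := fun i => (sc i).to_subtype
  choose C hC using fun j : Σ i, s i => ss j.1 j.2.2
  obtain ⟨f, hf⟩ := exists_surjective_nat (Option (Σ i, s i))
  refine ⟨fun n => (f n).elim A C, fun B e z k hk ok ⟨x, U, ψ, h, hz, hx⟩ => ?_⟩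
  obtain ⟨e1, h1⟩ := A.N.cover (ψ (inv e z))
  obtain ⟨e0, m0, h0⟩ : ∃ e0 ∈ E, On e0 (ψ (inv e z)) := by
    have : ψ (inv e z) ∈ ⋃ e : A.N.Chart, (A.N.toE e).source := mem_iUnion.2 ⟨e1, h1⟩
    rw [← EU] at this
    simpa [On] using this
  have k1 : (1 : ℝ) ≤ k := by exact_mod_cast hk
  have q0 := mem_interior_iff_mem_nhds.2 (self_mem T hd h k1 ok hz h0)
  obtain ⟨W, w1, w2⟩ := (sU (⟨e0, m0⟩, k)).symm.subset ⟨_, ⟨B, rfl⟩, q0⟩
  obtain ⟨n, hn⟩ := hf (some ⟨(⟨e0, m0⟩, k), ⟨W, w1⟩⟩)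
  refine ⟨n, ?_⟩
  have w3 := hC ⟨(⟨e0, m0⟩, k), ⟨W, w1⟩⟩
  simp only [hn, Option.elim] at w3 ⊢
  rw [w3] at w2
  obtain ⟨V, φ, e', m, m', c, a1, a2, a3, a4, a5⟩ := interior_subset w2
  simp only [inv_co h0] at a1 a2 a4 a5
  have zt : z ∈ tgt e := (ok z (mem_closedBall_self (by positivity))).1
  refine ⟨_, φ ∘ ψ, e', m, m', T.trans d hd _ _ _ U ψ V φ h c, ⟨hz, a1⟩, a2, a3, a4, ?_⟩
  simp only [Function.comp]
  rw [chain zt (h.lm _ hz) (c.lm _ a1) h0 a2]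
  exact a5

end Vale.Agent.P354CB59
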